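import Vale.Agent.P090.Main

namespace Vale.Agent.Results.P090.NoBAP

open Vale.Agent.P090

theorem result : ∃ (M : Type) (_ : MetricSpace M) (o : M),
    Countable M ∧ UniformlyDiscrete M ∧ ¬ HasBAP (FreeSpace o) :=
  ⟨MM, inferInstance, oM, inferInstance, ⟨1, one_pos, fun _ _ h => one_le_dM h⟩, not_hasBAP⟩

end Vale.Agent.Results.P090.NoBAP
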